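import Mathlib

/-!
# S0453 (helper67): class averages on a finite set, and the product case of the two-pair lemma

`cavg Φ k f x` is the average of `f` over the `k`-class of `x` inside `Φ`.
* `sum_cavg_mul`: `∑ cavg f * h = ∑ f * h` for `h` constant on classes.
* `indep_of_rect`: on a set with injective coordinates `(A, C)` and the rectangle property,
  functions of `A` and functions of `C` are independent.
* `prod_nonneg`: there `0 ≤ ∑ (f - cavg_C f) (f - cavg_A f)`.
Mathlib only.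
-/

set_option autoImplicit false

namespace Crest.Agent.Helper67.SW

open Finset

section cavg

variable {X K : Type*} [DecidableEq K]

/-- the average of `f` over the `k`-class of `x` inside `Φ`. -/
noncomputable def cavg (Φ : Finset X) (k : X → K) (f : X → ℝ) (x : X) : ℝ :=
  (∑ y ∈ Φ.filter (fun y => k y = k x), f y) / ((Φ.filter (fun y => k y = k x)).card : ℝ)

theorem cavg_def (Φ : Finset X) (k : X → K) (f : X → ℝ) (x : X) :
    cavg Φ k f x = (∑ y ∈ Φ.filter (fun y => k y = k x), f y) /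
      ((Φ.filter (fun y => k y = k x)).card : ℝ) := rfl

theorem cavg_congr (Φ : Finset X) (k : X → K) (f : X → ℝ) {x x' : X} (h : k x = k x') :
    cavg Φ k f x = cavg Φ k f x' := by
  unfold cavg; rw [h]

theorem cavg_add (Φ : Finset X) (k : X → K) (f g : X → ℝ) (x : X) :
    cavg Φ k (fun y => f y + g y) x = cavg Φ k f x + cavg Φ k g x := by
  unfold cavg; rw [Finset.sum_add_distrib, add_div]

theorem cavg_sub (Φ : Finset X) (k : X → K) (f g : X → ℝ) (x : X) :
    cavg Φ k (fun y => f y - g y) x = cavg Φ k f x - cavg Φ k g x := by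
  unfold cavg; rw [Finset.sum_sub_distrib, sub_div]

theorem card_class_ne_zero (Φ : Finset X) (k : X → K) {x : X} (hx : x ∈ Φ) :
    ((Φ.filter (fun y => k y = k x)).card : ℝ) ≠ 0 := by
  have hne : (Φ.filter (fun y => k y = k x)).Nonempty := ⟨x, Finset.mem_filter.2 ⟨hx, rfl⟩⟩
  exact_mod_cast (Finset.card_pos.2 hne).ne'

/-- the class average of a function which is constant on the class of `x`. -/
theorem cavg_const_on (Φ : Finset X) (k : X → K) (h : X → ℝ) {x : X} (hx : x ∈ Φ)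
    (hh : ∀ y ∈ Φ, k y = k x → h y = h x) : cavg Φ k h x = h x := by
  unfold cavg
  have hne := card_class_ne_zero Φ k hx
  rw [Finset.sum_congr rfl
    (fun y hy => hh y (Finset.mem_filter.1 hy).1 (Finset.mem_filter.1 hy).2),
    Finset.sum_const, nsmul_eq_mul]
  field_simp

/-- class averages are self-adjoint against class functions. -/
theorem sum_cavg_mul (Φ : Finset X) (k : X → K) (f h : X → ℝ)
    (hh : ∀ x ∈ Φ, ∀ y ∈ Φ, k x = k y → h x = h y) :
    ∑ x ∈ Φ, cavg Φ k f x * h x = ∑ x ∈ Φ, f x * h x := by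
  rw [← Finset.sum_fiberwise_of_maps_to (g := k) (t := Φ.image k)
      (fun x hx => Finset.mem_image_of_mem _ hx) (fun x => cavg Φ k f x * h x),
    ← Finset.sum_fiberwise_of_maps_to (g := k) (t := Φ.image k)
      (fun x hx => Finset.mem_image_of_mem _ hx) (fun x => f x * h x)]
  refine Finset.sum_congr rfl (fun κ hκ => ?_)
  obtain ⟨x0, hx0, rfl⟩ := Finset.mem_image.1 hκ
  have hne := card_class_ne_zero Φ k hx0
  have h1 : ∀ x ∈ Φ.filter (fun x => k x = k x0),
      cavg Φ k f x * h x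
        = (∑ y ∈ Φ.filter (fun y => k y = k x0), f y) /
            ((Φ.filter (fun y => k y = k x0)).card : ℝ) * h x0 := by
    intro x hx
    have hkx : k x = k x0 := (Finset.mem_filter.1 hx).2
    rw [hh x (Finset.mem_filter.1 hx).1 x0 hx0 hkx, cavg_congr Φ k f hkx]
    rfl
  have h2 : ∀ x ∈ Φ.filter (fun x => k x = k x0), f x * h x = f x * h x0 := by
    intro x hx
    rw [hh x (Finset.mem_filter.1 hx).1 x0 hx0 (Finset.mem_filter.1 hx).2]
  rw [Finset.sum_congr rfl h1, Finset.sum_congr rfl h2, Finset.sum_const, ← Finset.sum_mul,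
    nsmul_eq_mul]
  field_simp

theorem sum_mul_cavg (Φ : Finset X) (k : X → K) (f h : X → ℝ)
    (hh : ∀ x ∈ Φ, ∀ y ∈ Φ, k x = k y → h x = h y) :
    ∑ x ∈ Φ, h x * cavg Φ k f x = ∑ x ∈ Φ, h x * f x := by
  simp only [mul_comm (h _)]
  exact sum_cavg_mul Φ k f h hh

/-- `∑ cavg f = ∑ f`. -/
theorem sum_cavg (Φ : Finset X) (k : X → K) (f : X → ℝ) :
    ∑ x ∈ Φ, cavg Φ k f x = ∑ x ∈ Φ, f x := by
  have := sum_cavg_mul Φ k f (fun _ => 1) (fun _ _ _ _ _ => rfl)
  simpa using this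

end cavg

section product

variable {X α γ : Type*} [DecidableEq α] [DecidableEq γ]

/-- transport of a sum over a set with injective coordinates `(A, C)` and the rectangle property to
the product of the coordinate images. -/
theorem sum_rect (Φ : Finset X) (A : X → α) (C : X → γ)
    (hI : ∀ x ∈ Φ, ∀ y ∈ Φ, A x = A y → C x = C y → x = y)
    (hR : ∀ x ∈ Φ, ∀ y ∈ Φ, ∃ z ∈ Φ, A z = A x ∧ C z = C y) (G : α → γ → ℝ) :
    ∑ x ∈ Φ, G (A x) (C x) = ∑ a ∈ Φ.image A, ∑ c ∈ Φ.image C, G a c := by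
  rw [← Finset.sum_product' (Φ.image A) (Φ.image C) G]
  have himg : Φ.image (fun x => (A x, C x)) = Φ.image A ×ˢ Φ.image C := by
    ext ⟨a, c⟩
    simp only [Finset.mem_image, Finset.mem_product, Prod.mk.injEq]
    constructor
    · rintro ⟨x, hx, rfl, rfl⟩
      exact ⟨⟨x, hx, rfl⟩, ⟨x, hx, rfl⟩⟩
    · rintro ⟨⟨x, hx, rfl⟩, ⟨y, hy, rfl⟩⟩
      obtain ⟨z, hz, h1, h2⟩ := hR x hx y hy
      exact ⟨z, hz, h1, h2⟩
  rw [← himg, Finset.sum_image]
  intro x hx y hy hxy
  simp only [Prod.mk.injEq] at hxy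
  exact hI x hx y hy hxy.1 hxy.2

/-- independence of the two coordinates on a rectangle. -/
theorem indep_of_rect (Φ : Finset X) (A : X → α) (C : X → γ)
    (hI : ∀ x ∈ Φ, ∀ y ∈ Φ, A x = A y → C x = C y → x = y)
    (hR : ∀ x ∈ Φ, ∀ y ∈ Φ, ∃ z ∈ Φ, A z = A x ∧ C z = C y) (φ : α → ℝ) (ψ : γ → ℝ) :
    (Φ.card : ℝ) * ∑ x ∈ Φ, φ (A x) * ψ (C x)
      = (∑ x ∈ Φ, φ (A x)) * ∑ x ∈ Φ, ψ (C x) := by
  have e0 := sum_rect Φ A C hI hR (fun _ _ => (1 : ℝ))
  have e1 := sum_rect Φ A C hI hR (fun a c => φ a * ψ c)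
  have e2 := sum_rect Φ A C hI hR (fun a _ => φ a)
  have e3 := sum_rect Φ A C hI hR (fun _ c => ψ c)
  simp only [Finset.sum_const, nsmul_eq_mul, mul_one] at e0 e2 e3
  rw [e1, e2, e3, ← Finset.sum_mul_sum, e0, ← Finset.mul_sum]
  ring

/-- **Product case.** -/
theorem prod_nonneg (Φ : Finset X) (A : X → α) (C : X → γ)
    (hI : ∀ x ∈ Φ, ∀ y ∈ Φ, A x = A y → C x = C y → x = y)
    (hR : ∀ x ∈ Φ, ∀ y ∈ Φ, ∃ z ∈ Φ, A z = A x ∧ C z = C y) (f : X → ℝ) :
    0 ≤ ∑ x ∈ Φ, (f x - cavg Φ C f x) * (f x - cavg Φ A f x) := by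
  rcases Φ.eq_empty_or_nonempty with h0 | hne
  · subst h0; simp
  have hcard : (Φ.card : ℝ) ≠ 0 := by exact_mod_cast (Finset.card_pos.2 hne).ne'
  set fb : ℝ := (∑ x ∈ Φ, f x) / (Φ.card : ℝ) with hfb
  -- orthogonality relations
  have o1 : ∑ x ∈ Φ, (f x - cavg Φ C f x) * (cavg Φ C f x - fb) = 0 := by
    have := sum_cavg_mul Φ C f (fun x => cavg Φ C f x - fb)
      (fun x _ y _ h => by rw [cavg_congr Φ C f h])
    simp only [sub_mul, Finset.sum_sub_distrib]
    linarith
  have o2 : ∑ x ∈ Φ, (f x - cavg Φ A f x) * (cavg Φ A f x - fb) = 0 := by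
    have := sum_cavg_mul Φ A f (fun x => cavg Φ A f x - fb)
      (fun x _ y _ h => by rw [cavg_congr Φ A f h])
    simp only [sub_mul, Finset.sum_sub_distrib]
    linarith
  have o3 : ∑ x ∈ Φ, (cavg Φ A f x - fb) * (cavg Φ C f x - fb) = 0 := by
    have hind := indep_of_rect Φ A C hI hR
      (fun a => (∑ y ∈ Φ.filter (fun y => A y = a), f y) /
          ((Φ.filter (fun y => A y = a)).card : ℝ) - fb)
      (fun c => (∑ y ∈ Φ.filter (fun y => C y = c), f y) /
          ((Φ.filter (fun y => C y = c)).card : ℝ) - fb)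
    have hz : ∑ x ∈ Φ, (cavg Φ A f x - fb) = 0 := by
      rw [Finset.sum_sub_distrib, sum_cavg, Finset.sum_const, nsmul_eq_mul, hfb]
      field_simp
      ring
    have hind' : (Φ.card : ℝ) * ∑ x ∈ Φ, (cavg Φ A f x - fb) * (cavg Φ C f x - fb)
        = (∑ x ∈ Φ, (cavg Φ A f x - fb)) * ∑ x ∈ Φ, (cavg Φ C f x - fb) := hind
    rw [hz, zero_mul] at hind'
    rcases mul_eq_zero.1 hind' with h | h
    · exact absurd h hcard
    · exact h
  have key : ∑ x ∈ Φ, (f x - cavg Φ C f x) * (f x - cavg Φ A f x)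
      = ∑ x ∈ Φ, (f x - cavg Φ C f x - cavg Φ A f x + fb) ^ 2 := by
    have : ∀ x ∈ Φ, (f x - cavg Φ C f x) * (f x - cavg Φ A f x)
        = (f x - cavg Φ C f x - cavg Φ A f x + fb) ^ 2
          + (f x - cavg Φ C f x) * (cavg Φ C f x - fb)
          + (f x - cavg Φ A f x) * (cavg Φ A f x - fb)
          - (cavg Φ A f x - fb) * (cavg Φ C f x - fb) := by
      intro x _; ring
    rw [Finset.sum_congr rfl this, Finset.sum_sub_distrib, Finset.sum_add_distrib,
      Finset.sum_add_distrib, o1, o2, o3]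
    ring
  rw [key]
  exact Finset.sum_nonneg (fun x _ => sq_nonneg _)

end product

end Crest.Agent.Helper67.SW
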