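import Crest.Agent.Helper67.SW.TwoPairSpec
import Crest.Agent.Helper67.SW.ClassAvg

/-!
# S0453 (helper67): the case `m ≠ 2` of `TwoPairSpec` (product fibres)

`twoPair_ne_two` is the text of `TwoPairSpec` with the extra hypothesis `m ≠ 2`: there is no centre
state, `(A, C)` is injective on `Φ` with the rectangle property, and the claim is `prod_nonneg`.
Mathlib only.
-/

set_option autoImplicit false

namespace Crest.Agent.Helper67.SW

open Finset

/-- number of `true`s of a block. -/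
def tot4 (M : Bool × Bool × Bool × Bool) : ℕ :=
  (if M.1 then 1 else 0) + (if M.2.1 then 1 else 0) + (if M.2.2.1 then 1 else 0)
    + (if M.2.2.2 then 1 else 0)

/-- first row sum of a block. -/
def rho4 (M : Bool × Bool × Bool × Bool) : ℕ := (if M.1 then 1 else 0) + (if M.2.1 then 1 else 0)

/-- first column sum of a block. -/
def kap4 (M : Bool × Bool × Bool × Bool) : ℕ :=
  (if M.1 then 1 else 0) + (if M.2.2.1 then 1 else 0)

theorem blk_eq_of_ne_two : ∀ M M' : Bool × Bool × Bool × Bool, tot4 M = tot4 M' → tot4 M ≠ 2 →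
    rho4 M = rho4 M' → kap4 M = kap4 M' → M = M' := by
  decide

theorem blk_exists_of_ne_two : ∀ M M' : Bool × Bool × Bool × Bool, tot4 M = tot4 M' →
    tot4 M ≠ 2 → ∃ M0 : Bool × Bool × Bool × Bool,
      tot4 M0 = tot4 M ∧ rho4 M0 = rho4 M ∧ kap4 M0 = kap4 M' := by
  decide

theorem tot4_of_isCtr : ∀ M : Bool × Bool × Bool × Bool, IsCtr M → tot4 M = 2 := by
  intro M h
  rcases h with rfl | rfl <;> rfl

section

variable {X α γ : Type} [DecidableEq α] [DecidableEq γ]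
  (Φ : Finset X) (M : X → Bool × Bool × Bool × Bool) (A : X → α) (C : X → γ)
  (m : ℕ) (As : ℕ → Finset α) (Cs : ℕ → Finset γ)

/-- the coordinates of a state of the fibre are admissible. -/
theorem coords_of_mem
    (himg : ∀ M0 a c, (∃ x ∈ Φ, M x = M0 ∧ A x = a ∧ C x = c) ↔
        (tot4 M0 = m ∧ a ∈ As (rho4 M0) ∧ c ∈ Cs (kap4 M0)))
    {x : X} (hx : x ∈ Φ) :
    tot4 (M x) = m ∧ A x ∈ As (rho4 (M x)) ∧ C x ∈ Cs (kap4 (M x)) :=
  (himg (M x) (A x) (C x)).1 ⟨x, hx, rfl, rfl, rfl⟩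

/-- `A` determines `ρ`. -/
theorem rho_eq_of_A_eq
    (himg : ∀ M0 a c, (∃ x ∈ Φ, M x = M0 ∧ A x = a ∧ C x = c) ↔
        (tot4 M0 = m ∧ a ∈ As (rho4 M0) ∧ c ∈ Cs (kap4 M0)))
    (hdA : ∀ r r', r ≠ r' → Disjoint (As r) (As r'))
    {x y : X} (hx : x ∈ Φ) (hy : y ∈ Φ) (h : A x = A y) : rho4 (M x) = rho4 (M y) := by
  by_contra hne
  have h1 := (coords_of_mem Φ M A C m As Cs himg hx).2.1
  have h2 := (coords_of_mem Φ M A C m As Cs himg hy).2.1
  rw [h] at h1
  exact Finset.disjoint_left.1 (hdA _ _ hne) h1 h2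

/-- `C` determines `κ`. -/
theorem kap_eq_of_C_eq
    (himg : ∀ M0 a c, (∃ x ∈ Φ, M x = M0 ∧ A x = a ∧ C x = c) ↔
        (tot4 M0 = m ∧ a ∈ As (rho4 M0) ∧ c ∈ Cs (kap4 M0)))
    (hdC : ∀ k k', k ≠ k' → Disjoint (Cs k) (Cs k'))
    {x y : X} (hx : x ∈ Φ) (hy : y ∈ Φ) (h : C x = C y) : kap4 (M x) = kap4 (M y) := by
  by_contra hne
  have h1 := (coords_of_mem Φ M A C m As Cs himg hx).2.2
  have h2 := (coords_of_mem Φ M A C m As Cs himg hy).2.2
  rw [h] at h1
  exact Finset.disjoint_left.1 (hdC _ _ hne) h1 h2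

/-- **The case `m ≠ 2` of `TwoPairSpec`.** -/
theorem twoPair_ne_two (sw : X → X) (f : X → ℝ) (hm : m ≠ 2)
    (hinj : ∀ x ∈ Φ, ∀ y ∈ Φ, M x = M y → A x = A y → C x = C y → x = y)
    (himg : ∀ M0 a c, (∃ x ∈ Φ, M x = M0 ∧ A x = a ∧ C x = c) ↔
        ((if M0.1 then 1 else 0) + (if M0.2.1 then 1 else 0) + (if M0.2.2.1 then 1 else 0)
            + (if M0.2.2.2 then 1 else 0) = m ∧
          a ∈ As ((if M0.1 then 1 else 0) + (if M0.2.1 then 1 else 0)) ∧
          c ∈ Cs ((if M0.1 then 1 else 0) + (if M0.2.2.1 then 1 else 0))))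
    (hdA : ∀ r r', r ≠ r' → Disjoint (As r) (As r'))
    (hdC : ∀ k k', k ≠ k' → Disjoint (Cs k) (Cs k')) :
    ∑ x ∈ Φ.filter (fun x => M x = (true, false, false, true)), (f x - f (sw x)) ^ 2
      - ∑ x ∈ Φ.filter (fun x => IsCtr (M x)),
          ((∑ y ∈ Φ.filter (fun y => C y = C x ∧ IsCtr (M y)), f y) /
              ((Φ.filter (fun y => C y = C x ∧ IsCtr (M y))).card : ℝ)
            - (∑ y ∈ Φ.filter (fun y => C y = C x), f y) /
              ((Φ.filter (fun y => C y = C x)).card : ℝ)) ^ 2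
      - ∑ x ∈ Φ.filter (fun x => IsCtr (M x)),
          ((∑ y ∈ Φ.filter (fun y => A y = A x ∧ IsCtr (M y)), f y) /
              ((Φ.filter (fun y => A y = A x ∧ IsCtr (M y))).card : ℝ)
            - (∑ y ∈ Φ.filter (fun y => A y = A x), f y) /
              ((Φ.filter (fun y => A y = A x)).card : ℝ)) ^ 2
      ≤ 2 * ∑ x ∈ Φ,
          (f x - (∑ y ∈ Φ.filter (fun y => C y = C x), f y) /
              ((Φ.filter (fun y => C y = C x)).card : ℝ)) *
          (f x - (∑ y ∈ Φ.filter (fun y => A y = A x), f y) /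
              ((Φ.filter (fun y => A y = A x)).card : ℝ)) := by
  have himg' : ∀ M0 a c, (∃ x ∈ Φ, M x = M0 ∧ A x = a ∧ C x = c) ↔
      (tot4 M0 = m ∧ a ∈ As (rho4 M0) ∧ c ∈ Cs (kap4 M0)) := himg
  have hco := fun {x : X} (hx : x ∈ Φ) => coords_of_mem Φ M A C m As Cs himg' hx
  have hnoc : ∀ x ∈ Φ, ¬ IsCtr (M x) := by
    intro x hx hc
    exact hm ((hco hx).1.symm.trans (tot4_of_isCtr _ hc))
  have hnocp : ∀ x ∈ Φ, ¬ M x = (true, false, false, true) :=
    fun x hx h => hnoc x hx (Or.inl h)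
  have hI : ∀ x ∈ Φ, ∀ y ∈ Φ, A x = A y → C x = C y → x = y := by
    intro x hx y hy hA hC
    refine hinj x hx y hy ?_ hA hC
    refine blk_eq_of_ne_two _ _ ((hco hx).1.trans (hco hy).1.symm) ?_
      (rho_eq_of_A_eq Φ M A C m As Cs himg' hdA hx hy hA)
      (kap_eq_of_C_eq Φ M A C m As Cs himg' hdC hx hy hC)
    rw [(hco hx).1]; exact hm
  have hR : ∀ x ∈ Φ, ∀ y ∈ Φ, ∃ z ∈ Φ, A z = A x ∧ C z = C y := by
    intro x hx y hy
    obtain ⟨M0, h1, h2, h3⟩ := blk_exists_of_ne_two (M x) (M y)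
      ((hco hx).1.trans (hco hy).1.symm) (by rw [(hco hx).1]; exact hm)
    obtain ⟨z, hz, -, hzA, hzC⟩ := (himg' M0 (A x) (C y)).2
      ⟨h1.trans (hco hx).1, by rw [h2]; exact (hco hx).2.1, by rw [h3]; exact (hco hy).2.2⟩
    exact ⟨z, hz, hzA, hzC⟩
  have h := prod_nonneg Φ A C hI hR f
  unfold cavg at h
  rw [Finset.filter_false_of_mem hnocp, Finset.filter_false_of_mem hnoc]
  simp only [Finset.sum_empty, sub_zero]
  linarith

end

end Crest.Agent.Helper67.SW
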